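import Mathlib

/-!
Branch points of finitely many sequences that agree below any common value: there are at most as
many as sequences.
-/

open Finset

namespace Vale.Agent.P158.Fork

variable {ι X : Type*} (P : ι → ℕ → X) (len : ι → ℕ)

/-- Two sequences with a common value share the index and everything below it. -/
def Agree (s : Set ι) : Prop :=
  ∀ a ∈ s, ∀ c ∈ s, ∀ i j, i ≤ len a → j ≤ len c → P a i = P c j →
    i = j ∧ ∀ k, k ≤ i → P a k = P c k

/-- The values after which two of the sequences differ. -/
def branchSet (s : Set ι) : Set X :=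
  {x | ∃ a ∈ s, ∃ c ∈ s, ∃ i, i < len a ∧ i < len c ∧ P a i = x ∧ P c i = x ∧
    P a (i + 1) ≠ P c (i + 1)}

theorem branchSet_finite_card_le (s : Finset ι) (h : Agree P len s) :
    (branchSet P len s).Finite ∧ (branchSet P len s).ncard ≤ s.card := by
  classical
  induction s using Finset.induction with
  | empty => simp [branchSet]
  | insert a s ha ih =>
    have hs : Agree P len s := fun b hb c hc =>
      h b (Finset.mem_insert_of_mem hb) c (Finset.mem_insert_of_mem hc)
    obtain ⟨hfin, hle⟩ := ih hs
    -- the new points are the last value of the new sequence shared with an old one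
    set new : Set X := {x | x ∉ branchSet P len s ∧ x ∈ branchSet P len (insert a s : Finset ι)}
    have key : ∀ x ∈ new, ∃ i, x = P a i ∧ i < len a ∧ (∃ c ∈ s, i < len c ∧ P c i = P a i) ∧
        ∀ m, i < m → m ≤ len a → ∀ e ∈ s, m ≤ len e → P a m ≠ P e m := by
      intro x hx
      obtain ⟨hold, b, hb, c, hc, i, hib, hic, hbx, hcx, hne⟩ := hx
      wlog hb' : b = a generalizing b c
      · have hc' : c = a := by
          by_contra hc'
          exact hold ⟨b, Finset.mem_of_mem_insert_of_ne hb hb', c,
            Finset.mem_of_mem_insert_of_ne hc hc', i, hib, hic, hbx, hcx, hne⟩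
        exact this c hc b hb hic hib hcx hbx hne.symm hc'
      subst hb'
      have hc' : c ∈ s := Finset.mem_of_mem_insert_of_ne hc fun e => hne (by rw [e])
      refine ⟨i, hbx.symm, hib, ⟨c, hc', hic, hcx.trans hbx.symm⟩, fun m him hm e he hme heq => ?_⟩
      obtain ⟨-, hk⟩ := h b hb e (Finset.mem_insert_of_mem he) m m hm hme heq
      exact hold ⟨e, he, c, hc', i, him.trans_le hme, hic, (hk i him.le).symm.trans hbx, hcx,
        by rw [← hk (i + 1) him]; exact hne⟩
    have hsub : new.Subsingleton := by
      intro x hx y hy
      obtain ⟨i, hxi, hi, ⟨c, hc, hic, hci⟩, himax⟩ := key x hx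
      obtain ⟨j, hyj, hj, ⟨e, he, hje, hej⟩, hjmax⟩ := key y hy
      rcases lt_trichotomy i j with hlt | heq | hlt
      · exact absurd hej.symm (himax j hlt hj.le e he hje.le)
      · rw [hxi, hyj, heq]
      · exact absurd hci.symm (hjmax i hlt hi.le c hc hic.le)
    have hcover : branchSet P len (insert a s : Finset ι) ⊆ branchSet P len s ∪ new := fun x hx => by
      by_cases hxs : x ∈ branchSet P len s
      exacts [Or.inl hxs, Or.inr ⟨hxs, hx⟩]
    refine ⟨(hfin.union hsub.finite).subset hcover, ?_⟩
    refine (Set.ncard_le_ncard hcover (hfin.union hsub.finite)).trans ((Set.ncard_union_le _ _).trans ?_)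
    rw [Finset.card_insert_of_notMem ha]
    exact add_le_add hle ((Set.ncard_le_one hsub.finite).2 fun x hx y hy => hsub hx hy)

end Vale.Agent.P158.Fork
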