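import Vale.Agent.P158.Fork.Geometry
import Vale.Agent.P158.Fork.Tree

/-!
The tree count: in a box along one slope there are few forks compared with the entrance edges of
lines of that slope in the columns to the right.
-/

open MeasureTheory SimpleGraph

namespace Vale.Agent.P158.Fork

variable {t : Conf} {r₁ M ε s a b : ℝ} {C L J m R : ℕ} {v : V}

/-- Two cone lines with the forward half in common, split at `v`. -/
def ForkAt (t : Conf) (a b : ℝ) (R : ℕ) (v : V) : Prop :=
  ∃ γ δ, ConeLine t 0 a b R γ ∧ ConeLine t 0 a b R δ ∧ γ 0 = v ∧ (∀ n : ℕ, γ n = δ n) ∧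
    γ (-1) ≠ δ (-1)

/-- The light edges of a walk. -/
noncomputable def lightSet (t : Conf) (r₁ : ℝ) {x y : V} (p : grid.Walk x y) : Finset ℕ :=
  (Finset.range p.length).filter fun k => wt t (p.getVert k) (p.getVert (k + 1)) < r₁

/-- Paths from `v` of weight `O(L)` have length at most `C L`, and these have few light edges. -/
def NiceAt (M r₁ : ℝ) (C L : ℕ) (t : Conf) (v : V) : Prop :=
  (∀ (y : V) (p : grid.Walk v y), p.IsPath → plen t p ≤ 20 * M * L → p.length ≤ C * L) ∧
    ∀ (y : V) (p : grid.Walk v y), p.IsPath → p.length ≤ C * L → 10 * (lightSet t r₁ p).card ≤ L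

/-- A line enters the column of `v` for the first time at `v`, through a heavy edge, and crosses
into that column at most `J` times. -/
def QualAt (t : Conf) (r₁ a b : ℝ) (J : ℕ) (v : V) : Prop :=
  r₁ ≤ wt t (v.1 - 1, v.2) v ∧ ∃ (R : ℕ) (γ : ℤ → V), ConeLine t 0 a b R γ ∧ γ 0 = v ∧
    γ (-1) = (v.1 - 1, v.2) ∧ (∀ i : ℤ, i < 0 → (γ i).1 < v.1) ∧
    ∀ F : Finset ℤ, (∀ i ∈ F, min (γ i).1 (γ (i + 1)).1 = v.1 - 1 ∧
      max (γ i).1 (γ (i + 1)).1 = v.1) → F.card ≤ J

/-- The box of forks. -/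
noncomputable def forkBox (s : ℝ) (L m : ℕ) : Finset V :=
  (Finset.Icc (-(L : ℤ)) L ×ˢ Finset.Icc (-(m : ℤ)) m).image fun p => (p.1, ⌊s * p.1⌋ + p.2)

/-- The cap of a column. -/
noncomputable def cap (s : ℝ) (m : ℕ) (c : ℤ) : Finset V :=
  (Finset.Icc (-(7 * m : ℤ)) (7 * m)).image fun j => (c, ⌊s * c⌋ + j)

/-- The caps of the columns to the right of the box. -/
noncomputable def rightCaps (s : ℝ) (L m : ℕ) : Finset V :=
  (Finset.Icc (2 * (L : ℤ) + 1) (3 * L)).biUnion (cap s m)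

lemma card_cap (s : ℝ) (m : ℕ) (c : ℤ) : (cap s m c).card = 14 * m + 1 := by
  rw [cap, Finset.card_image_of_injective _ fun i j h => by simpa using (Prod.ext_iff.1 h).2,
    Int.card_Icc]
  omega

lemma card_forkBox (s : ℝ) (L m : ℕ) : (forkBox s L m).card = (2 * L + 1) * (2 * m + 1) := by
  rw [forkBox, Finset.card_image_of_injective _ fun p q h => ?_, Finset.card_product, Int.card_Icc,
    Int.card_Icc]
  · congr 1 <;> omega
  · obtain ⟨h1, h2⟩ := Prod.ext_iff.1 h
    simp only at h1 h2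
    rw [h1] at h2
    exact Prod.ext h1 (by simpa using h2)

lemma card_rightCaps_le (s : ℝ) (L m : ℕ) : (rightCaps s L m).card ≤ L * (14 * m + 1) := by
  refine Finset.card_biUnion_le.trans ?_
  simp only [card_cap, Finset.sum_const, Int.card_Icc, smul_eq_mul]
  exact Nat.mul_le_mul_right _ (by omega)

lemma mem_cap {s : ℝ} {m : ℕ} {x : V}
    (h : |(x.2 : ℝ) - s * x.1| ≤ 7 * m - 1) : x ∈ cap s m x.1 := by
  obtain ⟨h1, h2⟩ := abs_le.1 h
  have hf := Int.floor_le (s * x.1)
  have hf' := Int.lt_floor_add_one (s * x.1)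
  refine Finset.mem_image.2 ⟨x.2 - ⌊s * x.1⌋, Finset.mem_Icc.2 ⟨?_, ?_⟩, by ext <;> simp⟩
  · have h3 : ((-(7 * m : ℤ) : ℤ) : ℝ) ≤ (((x.2 - ⌊s * x.1⌋ : ℤ)) : ℝ) := by push_cast; linarith
    exact_mod_cast h3
  · have h3 : (((x.2 - ⌊s * x.1⌋ : ℤ)) : ℝ) ≤ (((7 * m : ℤ)) : ℝ) := by push_cast; linarith
    exact_mod_cast h3

lemma forkBox_bounds {s : ℝ} {L m : ℕ} {v : V} (hv : v ∈ forkBox s L m) :
    -(L : ℤ) ≤ v.1 ∧ v.1 ≤ L ∧ |(v.2 : ℝ) - s * v.1| ≤ m + 1 := by
  obtain ⟨⟨c, j⟩, hp, rfl⟩ := Finset.mem_image.1 hv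
  simp only [Finset.mem_product, Finset.mem_Icc] at hp
  refine ⟨hp.1.1, hp.1.2, ?_⟩
  have hf := Int.floor_le (s * c)
  have hf' := Int.lt_floor_add_one (s * c)
  have hj1 : ((-(m : ℤ) : ℤ) : ℝ) ≤ ((j : ℤ) : ℝ) := by exact_mod_cast hp.2.1
  have hj2 : ((j : ℤ) : ℝ) ≤ ((m : ℤ) : ℝ) := by exact_mod_cast hp.2.2
  push_cast at hj1 hj2 ⊢
  rw [abs_le]
  constructor <;> linarith

/-- The standing assumptions on the box. -/
structure Params (ε s : ℝ) (L m R J C : ℕ) : Prop where
  hε : 0 < ε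
  hε1 : ε ≤ 1
  hs : |s| ≤ 5 / 2
  hm : ε * L ≤ m
  hm1 : 1 ≤ m
  hR : R < L
  hL : 3 ≤ L
  hC : 1 ≤ C
  hJ : 10 * C ≤ J

/-- The relation between a fork and a first visit on its common forward half. -/
def Rel (t : Conf) (ε s : ℝ) (R : ℕ) (v w : V) : Prop :=
  ∃ γ δ, ∃ n : ℕ, ConeLine t 0 (s - ε) (s + ε) R γ ∧ ConeLine t 0 (s - ε) (s + ε) R δ ∧
    γ 0 = v ∧ (∀ k : ℕ, γ k = δ k) ∧ γ (-1) ≠ δ (-1) ∧ γ n = w

lemma cone_height {γ : ℤ → V} (hc : ConeLine t 0 (s - ε) (s + ε) R γ) {n : ℕ} (hn : R ≤ n) :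
    |((γ n).2 : ℝ) - (γ 0).2 - s * (((γ n).1 : ℝ) - (γ 0).1)| ≤
        ε * (((γ n).1 : ℝ) - (γ 0).1) ∧
      |((γ (-n)).2 : ℝ) - (γ 0).2 - s * (((γ (-n)).1 : ℝ) - (γ 0).1)| ≤
        ε * (((γ 0).1 : ℝ) - (γ (-n)).1) := by
  obtain ⟨-, h1, h2⟩ := cone_fwd hc hn
  obtain ⟨-, h3, h4⟩ := cone_bwd hc hn
  push_cast at h1 h2 h3 h4
  rw [abs_le, abs_le]
  refine ⟨⟨?_, ?_⟩, ?_, ?_⟩ <;> linarith

/-- Each fork of a branch point set is a branch point of the geodesic tree into `w`. -/
lemma card_rel_le (hp : Params ε s L m R J C) (htf : TieFree t) {w : V} (Fs : Finset V)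
    (hFs : Fs ⊆ forkBox s L m) (_hw : 2 * (L : ℤ) < w.1) :
    open Classical in (Fs.filter fun v => Rel t ε s R v w).card ≤ 14 * m + 1 := by
  classical
  set S := (cap s m (-2 * (L : ℤ))).filter fun x => ∃ γ, ∃ i j : ℤ, i ≤ j ∧
    IsBigeodesic t γ ∧ γ i = x ∧ γ j = w with hS
  have hex : ∀ x, ∃ (γ : ℤ → V) (j : ℤ) (len : ℕ), x ∈ S →
      IsBigeodesic t γ ∧ γ (j - len) = x ∧ γ j = w := by
    intro x
    by_cases hx : x ∈ S
    · obtain ⟨-, γ, i, j, hij, hg, hi, hj⟩ := Finset.mem_filter.1 hx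
      exact ⟨γ, j, (j - i).toNat, fun _ => ⟨hg, by rw [← hi]; congr 1; omega, hj⟩⟩
    · exact ⟨fun _ => 0, 0, 0, fun h => absurd h hx⟩
  choose g jx len hg using hex
  set P : V → ℕ → V := fun x k => g x (jx x - k)
  have hagree : Agree P len (S : Set V) := by
    intro x hx y hy i j hi hj hxy
    obtain ⟨gx, -, ex⟩ := hg x hx
    obtain ⟨gy, -, ey⟩ := hg y hy
    obtain ⟨hij, hk⟩ := segment_unique htf gx gy (i := jx x - i) (i' := jx y - j) (n := i) (n' := j)
      hxy (by rw [sub_add_cancel, sub_add_cancel, ex, ey])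
    refine ⟨hij, fun k hki => ?_⟩
    have := hk (i - k) (Nat.sub_le _ _)
    rw [Nat.cast_sub hki, ← hij] at this
    simp only [P]
    convert this using 2 <;> ring
  obtain ⟨hfin, hle⟩ := branchSet_finite_card_le P len S hagree
  refine le_trans ?_ (hle.trans ((Finset.card_filter_le _ _).trans_eq (card_cap _ _ _)))
  rw [Set.ncard_eq_toFinset_card _ hfin]
  refine Finset.card_le_card fun v hv => ?_
  obtain ⟨hvF, γ, δ, n, hγ, hδ, hv0, hcom, hne, hnw⟩ := Finset.mem_filter.1 hv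
  obtain ⟨hb1, hb2, hb3⟩ := forkBox_bounds (hFs hvF)
  have hR := hp.hR
  have leaf : ∀ η : ℤ → V, ConeLine t 0 (s - ε) (s + ε) R η → η 0 = v → η n = w →
      ∃ x ∈ S, n < len x ∧ P x n = v ∧ P x (n + 1) = η (-1) := by
    intro η hη h0 hw'
    obtain ⟨na, hna, hcol⟩ := exists_first_left hη (c := -2 * (L : ℤ)) (by rw [h0]; omega)
    have hcap : η (-na) ∈ cap s m (-2 * (L : ℤ)) := by
      have h := mem_cap (s := s) (m := m) (x := η (-na))
      rw [hcol] at h
      refine h ?_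
      have h1 := (cone_height hη hna.le).2
      rw [h0, hcol] at h1
      push_cast at h1 ⊢
      have hv1 : (v.1 : ℝ) ≤ L := by exact_mod_cast hb2
      have h3 : ε * ((v.1 : ℝ) - -(2 * (L : ℝ))) ≤ 3 * m := by
        nlinarith [mul_le_mul_of_nonneg_left hv1 hp.hε.le, hp.hm]
      have hm1 : (1 : ℝ) ≤ m := by exact_mod_cast hp.hm1
      obtain ⟨u1, u2⟩ := abs_le.1 h1
      obtain ⟨u3, u4⟩ := abs_le.1 hb3
      rw [abs_le]
      constructor <;> linarith
    have hx : η (-na) ∈ S := Finset.mem_filter.2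
      ⟨hcap, η, -(na : ℤ), n, by omega, hη.1, rfl, hw'⟩
    refine ⟨_, hx, ?_⟩
    obtain ⟨gx, ga, gw⟩ := hg _ hx
    obtain ⟨hlen, hk⟩ := segment_unique htf gx hη.1 (i' := -(na : ℤ)) (n' := na + n) ga
      (by rw [sub_add_cancel, gw, ← hw']; congr 1; push_cast; ring)
    refine ⟨by omega, ?_, ?_⟩
    · have h := hk na (by omega)
      simp only [P]
      rw [← h0]
      convert h using 2 <;> omega
    · have h := hk (na - 1) (by omega)
      simp only [P]
      convert h using 2 <;> omega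
  obtain ⟨x, hx, hxl, hxv, hx1⟩ := leaf γ hγ hv0 hnw
  obtain ⟨y, hy, hyl, hyv, hy1⟩ := leaf δ hδ
    ((show γ 0 = δ 0 by simpa using hcom 0).symm.trans hv0) ((hcom n).symm.trans hnw)
  exact hfin.mem_toFinset.2
    ⟨x, hx, y, hy, n, hxl, hyl, hxv, hyv, by rw [hx1, hy1]; exact hne⟩

/-- On most columns to the right, the first visit of a fork line is qualified. -/
lemma qual_of_fork (hp : Params ε s L m R J C) (hM : InRange M t) (hv : v ∈ forkBox s L m)
    (hf : ForkAt t (s - ε) (s + ε) R v) (hnice : NiceAt M r₁ C L t v) :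
    open Classical in L ≤ 2 * ((rightCaps s L m).filter fun w =>
      QualAt t r₁ (s - 3 * ε) (s + 3 * ε) J w ∧ Rel t ε s R v w).card := by
  classical
  obtain ⟨γ, δ, hγ, hδ, hv0, hcom, hne⟩ := hf
  obtain ⟨hb1, hb2, hb3⟩ := forkBox_bounds hv
  have hR := hp.hR
  have hL := hp.hL
  set cols := Finset.Icc (2 * (L : ℤ) + 1) (3 * L)
  have hfirst : ∀ c : ℤ, ∃ n : ℕ, c ∈ cols → R < n ∧ (γ n).1 = c ∧
      (∀ i : ℤ, i < n → (γ i).1 < c) ∧ γ ((n : ℤ) - 1) = (c - 1, (γ n).2) := by
    intro c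
    by_cases hcc : c ∈ cols
    · obtain ⟨n, hn⟩ := exists_first_right hγ (c := c) (by
        rw [hv0]; have := Finset.mem_Icc.1 hcc; omega)
      exact ⟨n, fun _ => hn⟩
    · exact ⟨0, fun h => absurd h hcc⟩
  choose first hfirst using hfirst
  -- the last visit of the columns up to `3 L`
  set fin3 := (fwd_finite hγ (3 * (L : ℤ))).toFinset
  have h3ne : fin3.Nonempty := ⟨0, (fwd_finite hγ _).mem_toFinset.2 (by
    show (γ ((0 : ℕ) : ℤ)).1 ≤ _
    rw [Nat.cast_zero, hv0]; omega)⟩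
  set Nl := fin3.max' h3ne
  have hNl : (γ Nl).1 ≤ 3 * L := (fwd_finite hγ _).mem_toFinset.1 (fin3.max'_mem h3ne)
  have hle : ∀ k : ℕ, (γ k).1 ≤ 3 * L → k ≤ Nl := fun k hk =>
    fin3.le_max' k ((fwd_finite hγ _).mem_toFinset.2 hk)
  set p := (seg γ (gadj hγ.1) 0 (Nl + 1)).copy hv0 rfl
  have hpl : p.length = Nl + 1 := (Walk.length_copy _ _ _).trans (length_seg _ _ _)
  have hpp : p.IsPath := (Walk.isPath_copy _ _ _).2 (isPath_seg _ hγ.1.inj _ _)
  have hget : ∀ k, k ≤ Nl + 1 → p.getVert k = γ k := fun k hk => by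
    simp only [p, Walk.getVert_copy]
    rw [getVert_seg _ 0 (Nl + 1) k hk, zero_add]
  have hlen : Nl + 1 ≤ C * L := by
    rw [← hpl]
    refine hnice.1 _ _ hpp ?_
    simp only [p, plen_copy]
    rw [plen_seg_eq_T hγ.1 0 (Nl + 1) (Nat.succ_pos _), hv0, zero_add]
    refine (T_le_l1 hM _ _).trans ?_
    have hM0 : 0 ≤ M := (hM ((0, 0), false)).1.trans (hM ((0, 0), false)).2
    rw [show 20 * M * (L : ℝ) = M * ((20 * L : ℕ) : ℝ) by push_cast; ring]
    refine mul_le_mul_of_nonneg_left ?_ hM0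
    obtain ⟨h1, h2, -⟩ := hfirst (2 * (L : ℤ) + 1) (Finset.mem_Icc.2 ⟨le_rfl, by omega⟩)
    have hn1 : first (2 * (L : ℤ) + 1) ≤ Nl := hle _ (by omega)
    have hc1 := (cone_height hγ (show R ≤ Nl + 1 by omega)).1
    have hc2 := (cone_fwd hγ (show R ≤ Nl + 1 by omega)).1
    have hc3 : (γ ((Nl + 1 : ℕ) : ℤ)).1 ≤ 3 * L + 1 := by
      have := (col_step hγ.1 Nl).1
      push_cast
      omega
    rw [hv0] at hc1 hc2
    set y := γ ((Nl + 1 : ℕ) : ℤ)
    have hΔ0 : (0 : ℝ) ≤ (y.1 : ℝ) - v.1 := by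
      rw [sub_nonneg]; exact_mod_cast hc2.le
    have hΔ : (y.1 : ℝ) - v.1 ≤ 4 * L + 1 := by
      have : ((y.1 : ℤ) : ℝ) ≤ (((v.1 + 4 * L + 1 : ℤ)) : ℝ) := by exact_mod_cast (by omega)
      push_cast at this
      linarith
    have hdh : |(y.2 : ℝ) - v.2| ≤ 7 / 2 * (4 * L + 1) := by
      obtain ⟨u1, u2⟩ := abs_le.1 hc1
      obtain ⟨s1, s2⟩ := abs_le.1 hp.hs
      have := mul_le_mul_of_nonneg_right s1 hΔ0
      have := mul_le_mul_of_nonneg_right s2 hΔ0
      have := mul_le_mul_of_nonneg_right hp.hε1 hΔ0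
      rw [abs_le]
      constructor <;> linarith
    push_cast
    rw [abs_sub_comm (v.1 : ℝ), abs_of_nonneg hΔ0, abs_sub_comm (v.2 : ℝ)]
    have hL' : (3 : ℝ) ≤ L := by exact_mod_cast hL
    linarith
  set X : ℤ → Finset ℕ := fun c => (Finset.range (Nl + 1)).filter fun i : ℕ =>
    min (γ i).1 (γ ((i : ℤ) + 1)).1 = c - 1 ∧ max (γ i).1 (γ ((i : ℤ) + 1)).1 = c
  set light := cols.filter fun c => wt t (γ ((first c : ℤ) - 1)) (γ (first c)) < r₁
  set crowd := cols.filter fun c => J < (X c).card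
  have hlight : 10 * light.card ≤ L := by
    refine le_trans (Nat.mul_le_mul_left _ ?_) (hnice.2 _ p hpp (hpl.trans_le hlen))
    refine Finset.card_le_card_of_injOn (fun c => first c - 1) (fun c hc => ?_) ?_
    · obtain ⟨hcc, hcw⟩ := Finset.mem_filter.1 hc
      obtain ⟨h1, h2, -, -⟩ := hfirst c hcc
      have h4 := hle (first c) (by rw [h2]; exact (Finset.mem_Icc.1 hcc).2)
      show first c - 1 ∈ lightSet t r₁ p
      refine Finset.mem_filter.2 ⟨Finset.mem_range.2 (by omega), ?_⟩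
      rw [hget _ (by omega), hget _ (by omega), show first c - 1 + 1 = first c by omega,
        show ((first c - 1 : ℕ) : ℤ) = (first c : ℤ) - 1 by omega]
      exact hcw
    · intro c hc c' hc' he
      obtain ⟨hcc, -⟩ := Finset.mem_filter.1 hc
      obtain ⟨hcc', -⟩ := Finset.mem_filter.1 hc'
      have := (hfirst c hcc).1
      have := (hfirst c' hcc').1
      simp only at he
      rw [← (hfirst c hcc).2.1, ← (hfirst c' hcc').2.1, show first c = first c' by omega]
  have hcrowd : 10 * crowd.card ≤ L := by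
    have h1 : (J + 1) * crowd.card ≤ Nl + 1 := by
      rw [mul_comm, ← smul_eq_mul, ← Finset.sum_const]
      refine (Finset.sum_le_sum (g := fun c => (X c).card) fun c hc =>
        (Finset.mem_filter.1 hc).2).trans ?_
      rw [← Finset.card_biUnion fun c _ c' _ hcc' => Finset.disjoint_left.2 fun i hi hi' =>
        hcc' ((Finset.mem_filter.1 hi).2.2.symm.trans (Finset.mem_filter.1 hi').2.2)]
      exact (Finset.card_le_card (Finset.biUnion_subset.2 fun c _ =>
        Finset.filter_subset _ _)).trans_eq (Finset.card_range _)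
    have hC := hp.hC
    have hJ := hp.hJ
    have h2 : C * (10 * crowd.card) ≤ C * L :=
      calc C * (10 * crowd.card) = 10 * C * crowd.card := by ring
        _ ≤ (J + 1) * crowd.card := Nat.mul_le_mul_right _ (by omega)
        _ ≤ C * L := h1.trans hlen
    exact Nat.le_of_mul_le_mul_left h2 hC
  set good := cols \ (light ∪ crowd)
  have hgood : L ≤ 2 * good.card := by
    have h1 : cols.card ≤ good.card + (light ∪ crowd).card :=
      Finset.card_le_card_sdiff_add_card
    have h2 := Finset.card_union_le light crowd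
    have h3 : cols.card = L := by rw [Int.card_Icc]; omega
    omega
  refine hgood.trans (Nat.mul_le_mul_left _ ?_)
  refine Finset.card_le_card_of_injOn (fun c => γ (first c)) (fun c hc => ?_) ?_
  · obtain ⟨hcc, hnot⟩ := Finset.mem_sdiff.1 hc
    simp only [light, crowd, Finset.mem_union, Finset.mem_filter, hcc, true_and, not_or,
      not_lt] at hnot
    obtain ⟨h1, h2, h3, h4⟩ := hfirst c hcc
    obtain ⟨hc1, hc2⟩ := Finset.mem_Icc.1 hcc
    have hh := (cone_height hγ h1.le).1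
    rw [hv0, h2] at hh
    have hcap : γ (first c) ∈ cap s m c := by
      have h := mem_cap (s := s) (m := m) (x := γ (first c))
      rw [h2] at h
      refine h ?_
      have hv1 : ((-(L : ℤ) : ℤ) : ℝ) ≤ ((v.1 : ℤ) : ℝ) := by exact_mod_cast hb1
      have hcR : (c : ℝ) ≤ ((3 * L : ℤ) : ℝ) := by exact_mod_cast hc2
      push_cast at hv1 hcR
      have h5 : ε * ((c : ℝ) - v.1) ≤ 4 * m := by
        nlinarith [mul_le_mul_of_nonneg_left (show (c : ℝ) - v.1 ≤ 4 * L by linarith) hp.hε.le,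
          hp.hm]
      have hm1 : (1 : ℝ) ≤ m := by exact_mod_cast hp.hm1
      obtain ⟨u1, u2⟩ := abs_le.1 hh
      obtain ⟨u3, u4⟩ := abs_le.1 hb3
      rw [abs_le]
      constructor <;> linarith
    refine Finset.mem_filter.2 ⟨Finset.mem_biUnion.2 ⟨c, hcc, hcap⟩, ⟨?_, ?_⟩,
      γ, δ, first c, hγ, hδ, hv0, hcom, hne, rfl⟩
    · rw [h2, ← h4]; exact hnot.1
    obtain ⟨N5, hN5⟩ := fwd_eventually hγ (c + 5 * L)
    refine ⟨first c + N5 + R + 1, fun i => γ (first c + i),
      ⟨⟨fun i j hij => by simpa using hγ.1.inj hij, fun i => by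
          simpa [add_assoc] using hγ.1.adj (first c + i), fun i j hij => ?_⟩, ?_, ?_⟩,
      by simp, ?_, ?_, ?_⟩
    · rw [← hγ.1.geo _ _ (add_lt_add_right hij _ : (first c : ℤ) + i < first c + j),
        ← Finset.map_add_left_Ico, Finset.sum_map]
      simp [add_assoc]
    · intro k hk
      have hk' : N5 ≤ first c + k := by omega
      have hcol := hN5 _ hk'
      have hh' := (cone_height hγ (show R ≤ first c + k by omega)).1
      rw [hv0] at hh'
      simp only [fwd, lev, zero_mul, add_zero, one_mul, Nat.cast_zero, zero_add]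
      rw [h2]
      push_cast at hh' hcol ⊢
      set x := γ ((first c : ℤ) + k)
      have hb : (c : ℝ) - v.1 ≤ (x.1 : ℝ) - c := by
        have : (((c - v.1 : ℤ)) : ℝ) ≤ (((x.1 - c : ℤ)) : ℝ) := by exact_mod_cast (by omega)
        push_cast at this
        exact this
      have hb0 : (0 : ℝ) ≤ (c : ℝ) - v.1 := by
        rw [sub_nonneg]; exact_mod_cast (by omega : v.1 ≤ c)
      have := mul_le_mul_of_nonneg_left hb hp.hε.le
      have := mul_nonneg hp.hε.le hb0
      obtain ⟨u1, u2⟩ := abs_le.1 hh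
      obtain ⟨u3, u4⟩ := abs_le.1 hh'
      exact ⟨by omega, by linarith, by linarith⟩
    · intro k hk
      obtain ⟨j, hj⟩ : ∃ j : ℕ, k = first c + j := ⟨k - first c, by omega⟩
      have hjR : R ≤ j := by omega
      have hcol := (cone_bwd hγ hjR).1
      have hh' := (cone_height hγ hjR).2
      rw [hv0] at hh' hcol
      simp only [bwd, lev, zero_mul, add_zero, zero_sub, Nat.cast_zero, sub_zero]
      rw [show (first c : ℤ) + -(k : ℤ) = -(j : ℤ) by omega, h2]
      push_cast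
      have hx : (γ (-(j : ℤ))).1 < c := by omega
      set x := γ (-(j : ℤ))
      have hb : (0 : ℝ) ≤ (c : ℝ) - x.1 := by rw [sub_nonneg]; exact_mod_cast hx.le
      have := mul_nonneg hp.hε.le hb
      obtain ⟨u1, u2⟩ := abs_le.1 hh
      obtain ⟨u3, u4⟩ := abs_le.1 hh'
      exact ⟨by omega, by linarith, by linarith⟩
    · show γ (first c + -1) = _
      rw [← sub_eq_add_neg, h4, h2]
    · intro i hi
      rw [h2]
      exact h3 _ (by omega)
    · intro F hF
      rw [h2] at hF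
      refine le_trans ?_ hnot.2
      refine Finset.card_le_card_of_injOn (fun i => ((first c : ℤ) + i).toNat) (fun i hi => ?_) ?_
      · obtain ⟨e1, e2⟩ := hF i hi
        have e0 : 0 ≤ (first c : ℤ) + i := by
          by_contra hneg
          push Not at hneg
          obtain ⟨k, hk⟩ : ∃ k : ℕ, (first c : ℤ) + i = -(k : ℤ) :=
            ⟨((first c : ℤ) + i).natAbs, by omega⟩
          have := bwd_col_le hγ k
          rw [hv0] at this
          simp only [hk] at e1
          omega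
        obtain ⟨k, hk⟩ := Int.eq_ofNat_of_zero_le e0
        simp only at e1 e2
        rw [show (first c : ℤ) + (i + 1) = (k : ℤ) + 1 by omega, hk] at e1 e2
        show ((first c : ℤ) + i).toNat ∈ X c
        rw [hk, Int.toNat_natCast]
        refine Finset.mem_filter.2 ⟨Finset.mem_range.2 ?_, e1, e2⟩
        rcases le_or_gt (γ k).1 (3 * L) with h | h
        · have := hle k h; omega
        · have := hle (k + 1) (by push_cast; omega); omega
      · intro i hi j hj hij
        simp only at hij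
        have aux : ∀ i ∈ F, 0 ≤ (first c : ℤ) + i := by
          intro i hi
          obtain ⟨e1, -⟩ := hF i hi
          by_contra hneg
          push Not at hneg
          obtain ⟨k, hk⟩ : ∃ k : ℕ, (first c : ℤ) + i = -(k : ℤ) :=
            ⟨((first c : ℤ) + i).natAbs, by omega⟩
          have := bwd_col_le hγ k
          rw [hv0] at this
          simp only [hk] at e1
          omega
        have := aux i hi
        have := aux j hj
        omega
  · intro c hc c' hc' he
    obtain ⟨hcc, -⟩ := Finset.mem_sdiff.1 hc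
    obtain ⟨hcc', -⟩ := Finset.mem_sdiff.1 hc'
    rw [← (hfirst c hcc).2.1, ← (hfirst c' hcc').2.1]
    exact congrArg Prod.fst he

open Classical in
/-- The pointwise inequality. -/
theorem count (hp : Params ε s L m R J C) (hM : InRange M t) (htf : TieFree t) :
    L * ((forkBox s L m).filter fun v =>
        ForkAt t (s - ε) (s + ε) R v ∧ NiceAt M r₁ C L t v).card ≤
      2 * (14 * m + 1) *
        ((rightCaps s L m).filter fun w => QualAt t r₁ (s - 3 * ε) (s + 3 * ε) J w).card := by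
  set Fs := (forkBox s L m).filter fun v => ForkAt t (s - ε) (s + ε) R v ∧ NiceAt M r₁ C L t v
  set B := (rightCaps s L m).filter fun w => QualAt t r₁ (s - 3 * ε) (s + 3 * ε) J w
  calc L * Fs.card = ∑ _v ∈ Fs, L := by rw [Finset.sum_const, smul_eq_mul, mul_comm]
    _ ≤ ∑ v ∈ Fs, 2 * (B.filter fun w => Rel t ε s R v w).card := Finset.sum_le_sum fun v hv => by
        obtain ⟨hv, hf, hn⟩ := Finset.mem_filter.1 hv
        rw [Finset.filter_filter]
        exact qual_of_fork hp hM hv hf hn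
    _ = 2 * ∑ w ∈ B, (Fs.filter fun v => Rel t ε s R v w).card := by
        rw [← Finset.mul_sum]
        exact congrArg _ (Finset.sum_card_bipartiteAbove_eq_sum_card_bipartiteBelow _)
    _ ≤ 2 * ∑ _w ∈ B, (14 * m + 1) := by
        refine Nat.mul_le_mul_left _ (Finset.sum_le_sum fun w hw => ?_)
        refine card_rel_le hp htf Fs (Finset.filter_subset _ _) ?_
        obtain ⟨c, hc, hcw⟩ := Finset.mem_biUnion.1 (Finset.mem_filter.1 hw).1
        obtain ⟨j, -, rfl⟩ := Finset.mem_image.1 hcw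
        have := Finset.mem_Icc.1 hc
        show 2 * (L : ℤ) < c
        omega
    _ = _ := by rw [Finset.sum_const, smul_eq_mul]; ring

end Vale.Agent.P158.Fork
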