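import Vale.Agent.P158.Fork.Walks
import Vale.Agent.P158.Basic

/-!
Lines in a slope cone of frame `0`: first visits of columns and the finitely many returns.
-/

open MeasureTheory SimpleGraph

namespace Vale.Agent.P158.Fork

variable {t : Conf} {γ : ℤ → V} {a b : ℝ} {R : ℕ}

lemma col_step (hg : IsBigeodesic t γ) (i : ℤ) :
    (γ (i + 1)).1 ≤ (γ i).1 + 1 ∧ (γ i).1 ≤ (γ (i + 1)).1 + 1 := by
  have h := adj_iff.1 (hg.adj i)
  omega

lemma col_dist (hg : IsBigeodesic t γ) (i : ℤ) : ∀ n : ℕ,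
    (γ (i + n)).1 ≤ (γ i).1 + n ∧ (γ i).1 ≤ (γ (i + n)).1 + n
  | 0 => by simp
  | n + 1 => by
    have h := col_dist hg i n
    have h' := col_step hg (i + n)
    rw [show i + ((n + 1 : ℕ) : ℤ) = i + n + 1 by push_cast; ring]
    push_cast
    omega

variable (hc : ConeLine t 0 a b R γ)

include hc in
lemma cone_fwd {n : ℕ} (hn : R ≤ n) :
    (γ 0).1 < (γ n).1 ∧ a * ((γ n).1 - (γ 0).1 : ℤ) ≤ ((γ n).2 - (γ 0).2 : ℤ) ∧
      (((γ n).2 - (γ 0).2 : ℤ) : ℝ) ≤ b * ((γ n).1 - (γ 0).1 : ℤ) := by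
  simpa [InCone, fwd, lev] using hc.2.1 n hn

include hc in
lemma cone_bwd {n : ℕ} (hn : R ≤ n) :
    (γ (-n)).1 < (γ 0).1 ∧ a * ((γ 0).1 - (γ (-n)).1 : ℤ) ≤ ((γ 0).2 - (γ (-n)).2 : ℤ) ∧
      (((γ 0).2 - (γ (-n)).2 : ℤ) : ℝ) ≤ b * ((γ 0).1 - (γ (-n)).1 : ℤ) := by
  simpa [InCone, bwd, lev] using hc.2.2 n hn

include hc in
/-- The backward half stays left of `(γ 0).1 + R`. -/
lemma bwd_col_le (n : ℕ) : (γ (-n)).1 ≤ (γ 0).1 + R := by
  rcases lt_or_ge n R with h | h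
  · have := (col_dist hc.1 (-n) n).2
    simp at this
    omega
  · have := (cone_bwd hc h).1
    omega

include hc in
/-- The forward half visits the columns up to `c` finitely often. -/
lemma fwd_finite (c : ℤ) : {n : ℕ | (γ n).1 ≤ c}.Finite := by
  obtain ⟨K, hK⟩ := exists_nat_ge (max |a| |b| * ((c - (γ 0).1 : ℤ) : ℝ))
  refine ((Set.finite_Iio R).union (((Finset.Icc (γ 0).1 c ×ˢ
    Finset.Icc ((γ 0).2 - K) ((γ 0).2 + K)).finite_toSet).preimage
      (f := fun n : ℕ => γ n) (fun x _ y _ hxy => by simpa using hc.1.inj hxy))).subset ?_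
  intro n (hn : (γ n).1 ≤ c)
  rcases lt_or_ge n R with h | h
  · exact Or.inl h
  obtain ⟨h1, h2, h3⟩ := cone_fwd hc h
  refine Or.inr ?_
  have hΔ : (((γ n).1 - (γ 0).1 : ℤ) : ℝ) ≤ ((c - (γ 0).1 : ℤ) : ℝ) := by exact_mod_cast (by omega)
  have h0 : (0 : ℝ) ≤ (((γ n).1 - (γ 0).1 : ℤ) : ℝ) := by exact_mod_cast (by omega)
  have hm : (0 : ℝ) ≤ max |a| |b| := (abs_nonneg a).trans (le_max_left _ _)
  have hmul := mul_le_mul_of_nonneg_left hΔ hm
  have hu : (((γ n).2 - (γ 0).2 : ℤ) : ℝ) ≤ ((K : ℤ) : ℝ) := by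
    push_cast at *
    nlinarith [mul_le_mul_of_nonneg_right ((le_abs_self b).trans (le_max_right |a| |b|)) h0]
  have hl : ((-(K : ℤ) : ℤ) : ℝ) ≤ (((γ n).2 - (γ 0).2 : ℤ) : ℝ) := by
    push_cast at *
    nlinarith [mul_le_mul_of_nonneg_right ((neg_le_abs a).trans (le_max_left |a| |b|)) h0]
  have hu' : (γ n).2 - (γ 0).2 ≤ (K : ℤ) := by exact_mod_cast hu
  have hl' : -(K : ℤ) ≤ (γ n).2 - (γ 0).2 := by exact_mod_cast hl
  simp only [Set.mem_preimage, Finset.mem_coe, Finset.mem_product, Finset.mem_Icc]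
  omega

include hc in
lemma fwd_eventually (c : ℤ) : ∃ N : ℕ, ∀ n, N ≤ n → c < (γ n).1 := by
  obtain ⟨N, hN⟩ := (fwd_finite hc c).bddAbove
  exact ⟨N + 1, fun n hn => by
    by_contra h
    have := hN (not_lt.1 h)
    omega⟩

include hc in
/-- The first visit of a column to the right. -/
lemma exists_first_right {c : ℤ} (hcR : (γ 0).1 + R < c) :
    ∃ n : ℕ, R < n ∧ (γ n).1 = c ∧ (∀ i : ℤ, i < n → (γ i).1 < c) ∧
      γ ((n : ℤ) - 1) = (c - 1, (γ n).2) := by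
  classical
  obtain ⟨N, hN⟩ := fwd_eventually hc c
  have hex : ∃ n : ℕ, c ≤ (γ n).1 := ⟨N, (hN N le_rfl).le⟩
  set n := Nat.find hex
  have hn : c ≤ (γ n).1 := Nat.find_spec hex
  have hlt : ∀ i : ℤ, i < n → (γ i).1 < c := by
    intro i hi
    rcases le_or_gt 0 i with h | h
    · obtain ⟨k, rfl⟩ := Int.eq_ofNat_of_zero_le h
      have := Nat.find_min hex (Int.ofNat_lt.1 hi)
      omega
    · obtain ⟨k, rfl⟩ : ∃ k : ℕ, i = -(k : ℤ) := ⟨i.natAbs, by omega⟩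
      have := bwd_col_le hc k
      omega
  have hd := (col_dist hc.1 0 n).1
  rw [zero_add] at hd
  have h1 := hlt ((n : ℤ) - 1) (by omega)
  have h2 := adj_iff.1 (hc.1.adj ((n : ℤ) - 1))
  rw [sub_add_cancel] at h2
  refine ⟨n, by omega, by omega, hlt, ?_⟩
  ext <;> omega

include hc in
/-- The first visit of a column to the left, going backwards. -/
lemma exists_first_left {c : ℤ} (hcR : c + R < (γ 0).1) :
    ∃ n : ℕ, R < n ∧ (γ (-n)).1 = c := by
  classical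
  have hex : ∃ n : ℕ, (γ (-n)).1 ≤ c := by
    by_contra hcon
    push Not at hcon
    obtain ⟨K, hK⟩ := exists_nat_ge (max |a| |b| * (((γ 0).1 - c : ℤ) : ℝ))
    have hfin : {n : ℕ | R ≤ n}.Finite := by
      refine (((Finset.Icc c (γ 0).1 ×ˢ Finset.Icc ((γ 0).2 - K) ((γ 0).2 + K)).finite_toSet).preimage
        (f := fun n : ℕ => γ (-n)) (fun x _ y _ hxy => by simpa using hc.1.inj hxy)).subset ?_
      intro n (h : R ≤ n)
      obtain ⟨h1, h2, h3⟩ := cone_bwd hc h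
      have h4 := hcon n
      have hΔ : (((γ 0).1 - (γ (-n)).1 : ℤ) : ℝ) ≤ (((γ 0).1 - c : ℤ) : ℝ) := by
        exact_mod_cast (by omega)
      have h0 : (0 : ℝ) ≤ (((γ 0).1 - (γ (-n)).1 : ℤ) : ℝ) := by exact_mod_cast (by omega)
      have hm : (0 : ℝ) ≤ max |a| |b| := (abs_nonneg a).trans (le_max_left _ _)
      have hmul := mul_le_mul_of_nonneg_left hΔ hm
      have hu : (((γ 0).2 - (γ (-n)).2 : ℤ) : ℝ) ≤ ((K : ℤ) : ℝ) := by
        push_cast at *
        nlinarith [mul_le_mul_of_nonneg_right ((le_abs_self b).trans (le_max_right |a| |b|)) h0]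
      have hl : ((-(K : ℤ) : ℤ) : ℝ) ≤ (((γ 0).2 - (γ (-n)).2 : ℤ) : ℝ) := by
        push_cast at *
        nlinarith [mul_le_mul_of_nonneg_right ((neg_le_abs a).trans (le_max_left |a| |b|)) h0]
      have hu' : (γ 0).2 - (γ (-n)).2 ≤ (K : ℤ) := by exact_mod_cast hu
      have hl' : -(K : ℤ) ≤ (γ 0).2 - (γ (-n)).2 := by exact_mod_cast hl
      simp only [Set.mem_preimage, Finset.mem_coe, Finset.mem_product, Finset.mem_Icc]
      omega
    exact Set.infinite_of_forall_exists_gt (fun k => ⟨k + R + 1, show R ≤ k + R + 1 by omega,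
      by omega⟩) hfin
  set n := Nat.find hex
  have hn : (γ (-n)).1 ≤ c := Nat.find_spec hex
  have hd := (col_dist hc.1 (-n) n).1
  rw [neg_add_cancel] at hd
  have hpos : 0 < n := by omega
  have hp := Nat.find_min hex (show n - 1 < n by omega)
  rw [Nat.cast_sub (by omega : 1 ≤ n)] at hp
  have h2 := col_step hc.1 (-(n : ℤ))
  rw [show -((n : ℤ) - ((1 : ℕ) : ℤ)) = -(n : ℤ) + 1 by push_cast; ring] at hp
  exact ⟨n, by omega, by omega⟩

end Vale.Agent.P158.Fork
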