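import Vale.Agent.P158.Fork.Count
import Vale.Agent.P158.Meas
import Vale.Agent.P158.BasicLaw

/-!
The probability of a fork in a narrow slope window, from the tree count, the unit bound and the
exponential bounds on self-avoiding walks.
-/

open MeasureTheory Filter Topology SimpleGraph
open scoped ENNReal

namespace Vale.Agent.P158.Fork

variable {G : Measure ℝ} {t : Conf} {M r₁ ε s a b : ℝ} {C L J m R : ℕ}

/-- Configurations with a fork at the origin. -/
def forkEvent (a b : ℝ) (R : ℕ) : Set Conf := {t | ForkAt t a b R (0, 0)}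

/-- The entrance event with any cone radius. -/
def unitAny (r₁ a b : ℝ) (J : ℕ) : Set Conf := ⋃ R, unitEvent r₁ a b R J

lemma card_lightSet_le (t : Conf) (r₁ : ℝ) {x y : V} (p : grid.Walk x y) :
    (lightSet t r₁ p).card ≤ hitCount (Set.Iio r₁) t p := by
  classical
  induction p with
  | nil => exact le_trans (Finset.card_filter_le _ _) (by simp)
  | @cons u v w h q ih =>
    simp only [lightSet, hitCount, Finset.card_filter] at ih ⊢
    rw [Walk.length_cons, Finset.sum_range_succ', edgeList_cons, List.countP_cons]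
    simp only [Walk.getVert_cons_succ, Walk.getVert_zero]
    refine Nat.add_le_add ih (le_of_eq ?_)
    by_cases hh : t (edgeOf u v) < r₁ <;> simp [wt, hh]

lemma qual_mem {v : V} (h : QualAt t r₁ a b J v) : shift v t ∈ unitAny r₁ a b J := by
  obtain ⟨hw, R, γ, hc, h0, h1, h2, h3⟩ := h
  refine Set.mem_iUnion.2
    ⟨R, (shift_mem_unitEvent v t r₁ a b R J).2 ⟨?_, γ, hc, ?_, ?_, ?_, ?_⟩⟩
  · rwa [show v + (-1, 0) = (v.1 - 1, v.2) by ext <;> simp [sub_eq_add_neg]]
  · show γ 0 - v = _
    rw [h0, sub_self]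
    rfl
  · show γ (-1) - v = _
    rw [h1]
    ext <;> simp
  · intro i hi
    have := h2 i hi
    show (γ i).1 - v.1 < 0
    omega
  · intro F hF
    refine h3 F fun i hi => ?_
    have := hF i hi
    simp only [Prod.fst_sub] at this
    omega

lemma fork_of_shift {v : V} (h : shift v t ∈ forkEvent a b R) : ForkAt t a b R v := by
  obtain ⟨γ, δ, hγ, hδ, h0, hcom, hne⟩ := h
  refine ⟨fun i => γ i + v, fun i => δ i + v, (coneLine_shift v t 0 a b R γ).1 hγ,
    (coneLine_shift v t 0 a b R δ).1 hδ, ?_, fun n => ?_, fun he => hne (add_right_cancel he)⟩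
  · simp [h0]
  · simp [hcom n]

lemma coneLine_mono {γ : ℤ → V} {R' : ℕ} (hR : R ≤ R') (h : ConeLine t 0 a b R γ) :
    ConeLine t 0 a b R' γ :=
  ⟨h.1, fun n hn => h.2.1 n (hR.trans hn), fun n hn => h.2.2 n (hR.trans hn)⟩

lemma unitEvent_mono (r₁ a b : ℝ) (J : ℕ) : Monotone fun R => unitEvent r₁ a b R J :=
  fun _ _ hR _ ⟨hr, γ, hc, he⟩ => ⟨hr, γ, coneLine_mono hR hc, he⟩

lemma forkEvent_mono (a b : ℝ) : Monotone fun R => forkEvent a b R :=
  fun _ _ hR _ ⟨γ, δ, hγ, hδ, h⟩ => ⟨γ, δ, coneLine_mono hR hγ, coneLine_mono hR hδ, h⟩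

lemma measurableSet_fork (a b : ℝ) (R : ℕ) : MeasurableSet (NN ∩ forkEvent a b R) := by
  set C : Set (Conf × ((ℤ → V) × (ℤ → V))) :=
    {q | (q.1 ∈ NN ∧ ConeLine q.1 0 a b R q.2.1) ∧ (q.1 ∈ NN ∧ ConeLine q.1 0 a b R q.2.2) ∧
      (∀ n : ℕ, q.2.1 n = q.2.2 n) ∧ q.2.1 (-1) ≠ q.2.2 (-1)}
  have h1 : ∀ i : ℤ, Continuous fun q : Conf × ((ℤ → V) × (ℤ → V)) => (q.2.1 i, q.2.2 i) :=
    fun i => ((continuous_apply i).comp (continuous_fst.comp continuous_snd)).prodMk
      ((continuous_apply i).comp (continuous_snd.comp continuous_snd))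
  have hC : IsClosed C := by
    refine ((isClosed_coneLine 0 a b R).preimage
      (continuous_fst.prodMk (continuous_fst.comp continuous_snd))).inter
      (((isClosed_coneLine 0 a b R).preimage
        (continuous_fst.prodMk (continuous_snd.comp continuous_snd))).inter (IsClosed.inter ?_ ?_))
    · show IsClosed {q : Conf × ((ℤ → V) × (ℤ → V)) | ∀ n : ℕ, q.2.1 n = q.2.2 n}
      simp only [Set.ofPred_forall]
      exact isClosed_iInter fun n => (isClosed_discrete {w : V × V | w.1 = w.2}).preimage (h1 n)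
    · exact (isClosed_discrete {w : V × V | w.1 ≠ w.2}).preimage (h1 (-1))
  convert measurableSet_exists_paths (v := (0, 0)) (w := (0, 0)) hC
  ext t
  constructor
  · rintro ⟨hn, γ, δ, hγ, hδ, h0, hcom, hne⟩
    exact ⟨(γ, δ), ⟨⟨h0, hγ.1.adj⟩, by simpa [h0] using (hcom 0).symm, hδ.1.adj⟩,
      ⟨hn, hγ⟩, ⟨hn, hδ⟩, hcom, hne⟩
  · rintro ⟨⟨γ, δ⟩, ⟨⟨h0, -⟩, -⟩, ⟨hn, hγ⟩, ⟨-, hδ⟩, hcom, hne⟩
    exact ⟨hn, γ, δ, hγ, hδ, h0, hcom, hne⟩

/-- With high probability the long paths from a vertex are expensive and mostly heavy. -/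
lemma nice_prob (hG : LawOK G M) : ∃ (r₁ : ℝ) (C : ℕ), 0 < G (Set.Iio r₁) ∧ 1 ≤ C ∧
    ∀ (v : V) (L : ℕ), 1 ≤ L →
      (law G).real {t | ¬ NiceAt M r₁ C L t v} ≤ 4 * (1 / 2 : ℝ) ^ (L / 10) := by
  have := law_isProb hG
  obtain ⟨κ, hκ, hshort⟩ := short_walk_prob hG
  set C := ⌈20 * M / κ⌉₊ + 1 with hCdef
  have hC1 : 1 ≤ C := Nat.succ_pos _
  have hCκ : 20 * M < κ * C := by
    rw [mul_comm κ, ← div_lt_iff₀ hκ, hCdef]
    push_cast
    have := Nat.le_ceil (20 * M / κ)
    linarith
  have hC0 : (0 : ℝ) < C := by exact_mod_cast hC1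
  obtain ⟨δ, hδ, hhit⟩ := hitCount_prob hG (θ := 1 / (10 * C)) (by positivity)
  obtain ⟨r₁, -, hpos, hle⟩ := exists_small_low hG hδ
  refine ⟨r₁, C, hpos, hC1, fun v L hL => ?_⟩
  have hsum : ∀ k : ℕ, ∑' n : ℕ, ENNReal.ofReal ((1 / 2) ^ (n + k))
      = ENNReal.ofReal (2 * (1 / 2) ^ k) := by
    intro k
    rw [← ENNReal.ofReal_tsum_of_nonneg (fun n => by positivity)
      ((summable_nat_add_iff k).2 summable_geometric_two)]
    congr 1
    rw [tsum_congr fun n => pow_add _ n k, tsum_mul_right, tsum_geometric_two]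
  refine ENNReal.toReal_le_of_le_ofReal (by positivity) ?_
  calc law G {t | ¬ NiceAt M r₁ C L t v}
      ≤ law G ((⋃ n, {t | ∃ y, ∃ p : grid.Walk v y, p.IsPath ∧ p.length = n + C * L ∧
          plen t p < κ * (n + C * L : ℕ)}) ∪
        ⋃ n, {t | ∃ y, ∃ p : grid.Walk v y, p.IsPath ∧ p.length = n + L / 10 ∧
          1 / (10 * C) * ((n + L / 10 : ℕ) : ℝ) < hitCount (Set.Iio r₁) t p}) :=
        measure_mono fun t ht => by
          simp only [NiceAt, Set.mem_ofPred_eq, not_and_or, not_forall, not_le] at ht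
          rcases ht with ⟨y, p, hp, hpl, hlen⟩ | ⟨y, p, hp, hlen, hlight⟩
          · refine Or.inl (Set.mem_iUnion.2 ⟨p.length - C * L, y, p, hp, by omega, ?_⟩)
            rw [Nat.sub_add_cancel hlen.le]
            have h1 : ((C * L : ℕ) : ℝ) ≤ p.length := by exact_mod_cast hlen.le
            push_cast at h1
            have hL' : (1 : ℝ) ≤ L := by exact_mod_cast hL
            nlinarith
          · have hh := card_lightSet_le t r₁ p
            have hn : hitCount (Set.Iio r₁) t p ≤ p.length := by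
              rw [← length_edgeList p]; exact List.countP_le_length
            refine Or.inr (Set.mem_iUnion.2 ⟨p.length - L / 10, y, p, hp, by omega, ?_⟩)
            rw [Nat.sub_add_cancel (by omega)]
            have h1 : (L : ℝ) < 10 * hitCount (Set.Iio r₁) t p := by
              exact_mod_cast hlight.trans_le (Nat.mul_le_mul_left 10 hh)
            have h2 : (p.length : ℝ) ≤ C * L := by exact_mod_cast hlen
            rw [div_mul_eq_mul_div, one_mul, div_lt_iff₀ (by positivity)]
            nlinarith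
    _ ≤ (∑' n, ENNReal.ofReal ((1 / 2) ^ (n + C * L))) +
        ∑' n, ENNReal.ofReal ((1 / 2) ^ (n + L / 10)) :=
      (measure_union_le _ _).trans (add_le_add
        ((measure_iUnion_le _).trans (ENNReal.tsum_le_tsum fun n => hshort v _))
        ((measure_iUnion_le _).trans
          (ENNReal.tsum_le_tsum fun n => hhit _ measurableSet_Iio hle v _)))
    _ ≤ _ := by
      rw [hsum, hsum, ← ENNReal.ofReal_add (by positivity) (by positivity)]
      refine ENNReal.ofReal_le_ofReal ?_
      have : (1 / 2 : ℝ) ^ (C * L) ≤ (1 / 2) ^ (L / 10) :=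
        pow_le_pow_of_le_one (by norm_num) (by norm_num)
          ((Nat.div_le_self _ _).trans (Nat.le_mul_of_pos_left L hC1))
      linarith

/-- The expectation of the tree count. -/
lemma expect_le (hG : LawOK G M) (hp : Params ε s L m R J C) {η : ℝ}
    (hη : ∀ v : V, (law G).real {t | ¬ NiceAt M r₁ C L t v} ≤ η) :
    ((L * ((2 * L + 1) * (2 * m + 1)) : ℕ) : ℝ) *
        (law G).real (forkEvent (s - ε) (s + ε) R) ≤
      ((L * ((2 * L + 1) * (2 * m + 1)) : ℕ) : ℝ) * η +
        ((2 * (14 * m + 1) * (L * (14 * m + 1)) : ℕ) : ℝ) *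
          (law G).real (unitAny r₁ (s - 3 * ε) (s + 3 * ε) J) := by
  classical
  have := law_isProb hG
  have := hG.prob
  have hη0 : 0 ≤ η := measureReal_nonneg.trans (hη 0)
  set μ := law G with hμ
  set F := forkEvent (s - ε) (s + ε) R
  set U := unitAny r₁ (s - 3 * ε) (s + 3 * ε) J
  set D : V → Set Conf := fun v =>
    shift v ⁻¹' (NN ∩ F) \ toMeasurable μ {t | ¬ NiceAt M r₁ C L t v}
  have hD : ∀ v, NullMeasurableSet (D v) μ := fun v =>
    (((measurableSet_fork _ _ R).nullMeasurableSet).preimage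
      (measurePreserving_shift v).quasiMeasurePreserving).diff
      (measurableSet_toMeasurable _ _).nullMeasurableSet
  have hUw : ∀ w : V, NullMeasurableSet (shift w ⁻¹' U) μ := fun w => by
    simp only [U, unitAny, Set.preimage_iUnion]
    exact NullMeasurableSet.iUnion fun R => nullMeasurableSet_shift_unitEvent hG w _ _ _ R J
  have hDv : ∀ v, μ F ≤ μ (D v) + ENNReal.ofReal η := by
    intro v
    have h1 : μ F ≤ μ (shift v ⁻¹' (NN ∩ F)) := by
      rw [hμ, law_shift_preimage]
      exact measure_mono_ae ((NN_mem_ae hG).mono fun t ht hF => ⟨ht, hF⟩)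
    refine h1.trans ((measure_mono (Set.subset_sdiff_union _ _)).trans
      ((measure_union_le _ _).trans (add_le_add le_rfl ?_)))
    rw [measure_toMeasurable, ← ofReal_measureReal (measure_ne_top _ _)]
    exact ENNReal.ofReal_le_ofReal (hη v)
  have hpt : ∀ᵐ t ∂μ, (L : ℝ≥0∞) * ∑ v ∈ forkBox s L m, (D v).indicator 1 t ≤
      ((2 * (14 * m + 1) : ℕ) : ℝ≥0∞) *
        ∑ w ∈ rightCaps s L m, (shift w ⁻¹' U).indicator 1 t := by
    filter_upwards [ae_inRange hG, ae_tieFree hG] with t hM htf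
    have key : L * ((forkBox s L m).filter fun v => t ∈ D v).card ≤
        2 * (14 * m + 1) * ((rightCaps s L m).filter fun w => t ∈ shift w ⁻¹' U).card := by
      refine le_trans ?_ ((count (r₁ := r₁) hp hM htf).trans
        (Nat.mul_le_mul_left _ (Finset.card_le_card ?_)))
      · refine Nat.mul_le_mul_left _ (Finset.card_le_card fun v hv => ?_)
        obtain ⟨hv, hDv⟩ := Finset.mem_filter.1 hv
        refine Finset.mem_filter.2 ⟨hv, fork_of_shift hDv.1.2, ?_⟩
        by_contra hn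
        exact hDv.2 (subset_toMeasurable _ _ hn)
      · exact fun w hw => Finset.mem_filter.2
          ⟨(Finset.mem_filter.1 hw).1, qual_mem (Finset.mem_filter.1 hw).2⟩
    have hcard : ∀ (S : Finset V) (A : V → Set Conf),
        ∑ v ∈ S, (A v).indicator (1 : Conf → ℝ≥0∞) t =
          ((S.filter fun v => t ∈ A v).card : ℝ≥0∞) := fun S A => by
      simp [Set.indicator_apply, Finset.sum_boole]
    rw [hcard, hcard, ← Nat.cast_mul, ← Nat.cast_mul, Nat.cast_le]
    convert key
  have hint := lintegral_mono_ae hpt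
  rw [lintegral_const_mul' _ _ (ENNReal.natCast_ne_top _),
    lintegral_const_mul' _ _ (ENNReal.natCast_ne_top _),
    lintegral_finsetSum' (f := fun v => (D v).indicator (1 : Conf → ℝ≥0∞)) _
      fun v _ => aemeasurable_const.indicator₀ (hD v),
    lintegral_finsetSum' (f := fun w => (shift w ⁻¹' U).indicator (1 : Conf → ℝ≥0∞)) _
      fun w _ => aemeasurable_const.indicator₀ (hUw w)] at hint
  rw [Finset.sum_congr rfl fun v _ => lintegral_indicator_one₀ (hD v),
    Finset.sum_congr rfl fun w _ => (lintegral_indicator_one₀ (hUw w)).trans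
      (law_shift_preimage w U), Finset.sum_const, nsmul_eq_mul] at hint
  have hmain : ((L * (forkBox s L m).card : ℕ) : ℝ≥0∞) * μ F ≤
      ((L * (forkBox s L m).card : ℕ) : ℝ≥0∞) * ENNReal.ofReal η +
        ((2 * (14 * m + 1) * (L * (14 * m + 1)) : ℕ) : ℝ≥0∞) * μ U := by
    push_cast
    calc (L : ℝ≥0∞) * (forkBox s L m).card * μ F
        = L * ∑ _v ∈ forkBox s L m, μ F := by rw [Finset.sum_const, nsmul_eq_mul, mul_assoc]
      _ ≤ L * (∑ v ∈ forkBox s L m, μ (D v) + (forkBox s L m).card * ENNReal.ofReal η) := by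
          rw [← nsmul_eq_mul _ (ENNReal.ofReal η), ← Finset.sum_const, ← Finset.sum_add_distrib]
          exact mul_le_mul' le_rfl (Finset.sum_le_sum fun v _ => hDv v)
      _ ≤ _ := by
          rw [mul_add, ← mul_assoc, add_comm]
          refine add_le_add le_rfl (hint.trans ?_)
          rw [← mul_assoc]
          refine mul_le_mul' ?_ le_rfl
          exact_mod_cast Nat.mul_le_mul_left _ (card_rightCaps_le s L m)
  rw [card_forkBox] at hmain
  have h := ENNReal.toReal_mono (ENNReal.add_ne_top.2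
    ⟨ENNReal.mul_ne_top (ENNReal.natCast_ne_top _) ENNReal.ofReal_ne_top,
      ENNReal.mul_ne_top (ENNReal.natCast_ne_top _) (measure_ne_top _ _)⟩) hmain
  rwa [ENNReal.toReal_add (ENNReal.mul_ne_top (ENNReal.natCast_ne_top _) ENNReal.ofReal_ne_top)
      (ENNReal.mul_ne_top (ENNReal.natCast_ne_top _) (measure_ne_top _ _)),
    ENNReal.toReal_mul, ENNReal.toReal_mul, ENNReal.toReal_mul, ENNReal.toReal_natCast,
    ENNReal.toReal_natCast, ENNReal.toReal_ofReal hη0] at h

/-- A fork in a narrow window is bounded by the corresponding unit. -/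
lemma fork_le_unit (hG : LawOK G M) (hε : 0 < ε) (hε1 : ε ≤ 1) (hs : |s| ≤ 5 / 2) (hC : 1 ≤ C)
    (hJ : 10 * C ≤ J) (hR : R < L) (hL : 3 ≤ L) (hεL : 1 ≤ ε * L) {η : ℝ}
    (hη : ∀ v : V, (law G).real {t | ¬ NiceAt M r₁ C L t v} ≤ η) :
    (law G).real (forkEvent (s - ε) (s + ε) R) ≤
      η + 300 * ε * (law G).real (unitAny r₁ (s - 3 * ε) (s + 3 * ε) J) := by
  have hm := Nat.le_ceil (ε * L)
  have hm2 := Nat.ceil_lt_add_one (show (0 : ℝ) ≤ ε * L by positivity)
  set m := ⌈ε * (L : ℝ)⌉₊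
  have hm1 : (1 : ℝ) ≤ m := hεL.trans hm
  have h := expect_le hG ⟨hε, hε1, hs, hm, by exact_mod_cast hm1, hR, hL, hC, hJ⟩ hη
  push_cast at h
  set F := (law G).real (forkEvent (s - ε) (s + ε) R)
  set U := (law G).real (unitAny r₁ (s - 3 * ε) (s + 3 * ε) J)
  have hU : 0 ≤ U := measureReal_nonneg
  have hL' : (3 : ℝ) ≤ L := by exact_mod_cast hL
  set K := (L : ℝ) * ((2 * L + 1) * (2 * m + 1))
  have hK : 0 < K := by positivity
  refine le_of_mul_le_mul_left (h.trans ?_) hK
  rw [mul_add K]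
  refine add_le_add (le_refl (K * η)) ?_
  rw [← mul_assoc K]
  refine mul_le_mul_of_nonneg_right ?_ hU
  have h1 : (14 * (m : ℝ) + 1) * (14 * m + 1) ≤ 225 * (m * m) := by nlinarith
  have h2 : 4 * (L : ℝ) * m ≤ (2 * L + 1) * (2 * m + 1) := by nlinarith
  have h3 : (m : ℝ) ≤ 2 * (ε * L) := by linarith
  have h4 : 2 * ((14 * (m : ℝ) + 1) * (14 * m + 1)) ≤ (2 * L + 1) * (2 * m + 1) * (300 * ε) := by
    have h5 : (m : ℝ) * m ≤ 2 * (ε * L) * m := mul_le_mul_of_nonneg_right h3 (by positivity)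
    have h6 : 4 * (L : ℝ) * m * (300 * ε) ≤ (2 * L + 1) * (2 * m + 1) * (300 * ε) :=
      mul_le_mul_of_nonneg_right h2 (by positivity)
    have h7 : (0 : ℝ) ≤ ε * L * m := by positivity
    nlinarith
  calc 2 * (14 * (m : ℝ) + 1) * (L * (14 * m + 1))
      = L * (2 * ((14 * (m : ℝ) + 1) * (14 * m + 1))) := by ring
    _ ≤ L * ((2 * L + 1) * (2 * m + 1) * (300 * ε)) := mul_le_mul_of_nonneg_left h4 (by positivity)
    _ = K * (300 * ε) := by ring

/-- The slope of the grid with index `l`. -/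
noncomputable def slope (N l : ℕ) : ℝ := (l : ℝ) / N - 1

/-- The units along a grid of slopes have bounded total probability. -/
lemma grid_sum_le (hG : LawOK G M) (hU : UnitBound G) (hr : 0 < G (Set.Iio r₁)) :
    ∃ K : ℝ, ∀ J N : ℕ, 9 ≤ N → ∑ l ∈ Finset.range (2 * N + 1),
      (law G).real (unitAny r₁ (slope N l - 3 / N) (slope N l + 3 / N) J) ≤
        7 * (K * (J + 1) ^ 2) := by
  have := law_isProb hG
  obtain ⟨K, hK⟩ := hU r₁ hr
  refine ⟨K, fun J N hN => ?_⟩
  set f : ℕ → ℝ := fun l =>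
    (law G).real (unitAny r₁ (slope N l - 3 / N) (slope N l + 3 / N) J)
  set n := 2 * N / 7 + 1
  have hcol : ∀ i < 7, ∑ j : Fin n, f (i + 7 * j) ≤ K * (J + 1) ^ 2 := by
    intro i hi
    have hlim : Tendsto (fun R => ∑ j : Fin n, (law G).real (unitEvent r₁
        (slope N (i + 7 * j) - 3 / N) (slope N (i + 7 * j) + 3 / N) R J)) atTop
        (𝓝 (∑ j : Fin n, f (i + 7 * j))) :=
      tendsto_finsetSum _ fun j _ => ((ENNReal.tendsto_toReal (measure_ne_top _ _)).comp
        (tendsto_measure_iUnion_atTop (unitEvent_mono _ _ _ J)))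
    refine le_of_tendsto' hlim fun R => hK R J n _ _ (fun j => ?_) (fun j k hjk => ?_)
    · have hN' : (9 : ℝ) ≤ N := by exact_mod_cast hN
      have h3 : (3 : ℝ) / N ≤ 1 / 3 := by rw [div_le_div_iff₀] <;> linarith
      have h30 : (0 : ℝ) ≤ 3 / N := by positivity
      have hl : ((i + 7 * j : ℕ) : ℝ) / N ≤ 3 := by
        rw [div_le_iff₀ (by linarith)]
        have : i + 7 * (j : ℕ) ≤ 3 * N := by omega
        exact_mod_cast this
      have hl0 : (0 : ℝ) ≤ ((i + 7 * j : ℕ) : ℝ) / N := by positivity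
      simp only [slope]
      refine ⟨?_, ?_, ?_⟩ <;> linarith
    · have h1 : ((i + 7 * j : ℕ) : ℝ) + 7 ≤ ((i + 7 * k : ℕ) : ℝ) := by
        have : i + 7 * (j : ℕ) + 7 ≤ i + 7 * (k : ℕ) := by
          have : (j : ℕ) < k := hjk
          omega
        exact_mod_cast this
      have hN' : (0 : ℝ) < N := by exact_mod_cast (by omega : 0 < N)
      simp only [slope]
      have := div_le_div_of_nonneg_right h1 hN'.le
      rw [add_div] at this
      have : (3 : ℝ) / N + 3 / N < 7 / N := by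
        rw [← add_div]; exact div_lt_div_of_pos_right (by norm_num) hN'
      linarith
  set S := Finset.range 7 ×ˢ Finset.range n
  calc ∑ l ∈ Finset.range (2 * N + 1), f l
      ≤ ∑ l ∈ S.image (fun p => p.1 + 7 * p.2), f l := by
        refine Finset.sum_le_sum_of_subset_of_nonneg (fun l hl => ?_) fun _ _ _ =>
          measureReal_nonneg
        have := Finset.mem_range.1 hl
        exact Finset.mem_image.2 ⟨(l % 7, l / 7), Finset.mem_product.2
          ⟨Finset.mem_range.2 (by omega), Finset.mem_range.2 (by omega)⟩,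
          show l % 7 + 7 * (l / 7) = l by omega⟩
    _ = ∑ i ∈ Finset.range 7, ∑ j ∈ Finset.range n, f (i + 7 * j) := by
        rw [Finset.sum_image, Finset.sum_product]
        rintro ⟨i, j⟩ hp ⟨i', j'⟩ hq (he : i + 7 * j = i' + 7 * j')
        simp only [S, Finset.coe_product, Set.mem_prod, Finset.mem_coe, Finset.mem_range] at hp hq
        ext <;> simp only <;> omega
    _ ≤ ∑ _i ∈ Finset.range 7, K * (J + 1) ^ 2 := Finset.sum_le_sum fun i hi => by
        rw [← Fin.sum_univ_eq_sum_range (fun j => f (i + 7 * j))]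
        exact hcol i (Finset.mem_range.1 hi)
    _ = _ := by simp

/-- The configurations with a fork at the origin along one slope of the grid. -/
def gridFork (N : ℕ) : Set Conf :=
  ⋃ R, ⋃ l ∈ Finset.range (2 * N + 1), forkEvent (slope N l - 1 / N) (slope N l + 1 / N) R

/-- Forks along a fine grid of slopes are rare. -/
theorem gridFork_small (hG : LawOK G M) (hU : UnitBound G) :
    ∃ K : ℝ, ∀ N : ℕ, 9 ≤ N → (law G).real (gridFork N) ≤ K / N := by
  have := law_isProb hG
  obtain ⟨r₁, C, hr, hC, hnice⟩ := nice_prob hG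
  obtain ⟨K, hK⟩ := grid_sum_le hG hU hr
  refine ⟨300 * (7 * (K * ((10 * C : ℕ) + 1 : ℝ) ^ 2)), fun N hN => ?_⟩
  have hN' : (9 : ℝ) ≤ N := by exact_mod_cast hN
  set A : ℕ → Set Conf := fun R => ⋃ l ∈ Finset.range (2 * N + 1),
    forkEvent (slope N l - 1 / N) (slope N l + 1 / N) R
  have hA : Monotone A := fun R R' h => Set.iUnion₂_mono fun l _ => forkEvent_mono _ _ h
  refine le_of_tendsto' ((ENNReal.tendsto_toReal (measure_ne_top _ _)).comp
    (tendsto_measure_iUnion_atTop hA)) fun R => ?_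
  have hev : ∀ᶠ L : ℕ in atTop, (law G).real (A R) ≤
      ((2 * N + 1 : ℕ) : ℝ) * (4 * (1 / 2 : ℝ) ^ (L / 10)) +
        300 * (7 * (K * ((10 * C : ℕ) + 1 : ℝ) ^ 2)) / N := by
    filter_upwards [eventually_gt_atTop (max R (max N 3))] with L hL
    simp only [max_lt_iff] at hL
    obtain ⟨hRL, hNL, h3L⟩ := hL
    calc (law G).real (A R)
        ≤ ∑ l ∈ Finset.range (2 * N + 1),
            (law G).real (forkEvent (slope N l - 1 / N) (slope N l + 1 / N) R) :=
          measureReal_biUnion_finset_le _ _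
      _ ≤ ∑ l ∈ Finset.range (2 * N + 1), (4 * (1 / 2 : ℝ) ^ (L / 10) + 300 * (1 / N) *
            (law G).real (unitAny r₁ (slope N l - 3 * (1 / N)) (slope N l + 3 * (1 / N))
              (10 * C))) := by
          refine Finset.sum_le_sum fun l hl => fork_le_unit hG (by positivity) ?_ ?_ hC le_rfl
            hRL h3L.le ?_ fun v => hnice v L (by omega)
          · rw [div_le_one (by linarith)]; linarith
          · have h1 : (l : ℝ) ≤ 2 * N := by
              exact_mod_cast Nat.lt_succ_iff.1 (Finset.mem_range.1 hl)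
            have h2 : (l : ℝ) / N ≤ 2 := by rw [div_le_iff₀ (by linarith)]; linarith
            have h3 : (0 : ℝ) ≤ (l : ℝ) / N := by positivity
            rw [slope, abs_le]
            constructor <;> linarith
          · rw [div_mul_eq_mul_div, one_mul, one_le_div (by linarith)]
            exact_mod_cast hNL.le
      _ ≤ _ := by
          rw [Finset.sum_add_distrib, Finset.sum_const, Finset.card_range, nsmul_eq_mul,
            ← Finset.mul_sum]
          simp only [mul_one_div]
          refine add_le_add le_rfl ?_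
          rw [div_mul_eq_mul_div]
          gcongr
          exact hK (10 * C) N hN
  refine ge_of_tendsto ?_ hev
  have h0 : Tendsto (fun L : ℕ => (1 / 2 : ℝ) ^ (L / 10)) atTop (𝓝 0) :=
    (tendsto_pow_atTop_nhds_zero_of_lt_one (by norm_num) (by norm_num)).comp
      (tendsto_atTop_atTop.2 fun b => ⟨10 * b, fun L hL => by omega⟩)
  simpa using ((h0.const_mul 4).const_mul ((2 * N + 1 : ℕ) : ℝ)).add_const
    (300 * (7 * (K * ((10 * C : ℕ) + 1 : ℝ) ^ 2)) / N)

end Vale.Agent.P158.Fork
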