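import Vale.Agent.P158.Spec

/-!
Finite segments of a bigeodesic as walks, and their uniqueness.
-/

open MeasureTheory SimpleGraph

namespace Vale.Agent.P158.Fork

variable {t : Conf} {γ δ : ℤ → V}

lemma gadj (hg : IsBigeodesic t γ) : ∀ i, grid.Adj (γ i) (γ (i + 1)) := hg.adj

/-- The segment of `n` steps from index `i`. -/
def seg (γ : ℤ → V) (h : ∀ i, grid.Adj (γ i) (γ (i + 1))) : (i : ℤ) → (n : ℕ) → grid.Walk (γ i) (γ (i + n))
  | i, 0 => Walk.nil.copy rfl (by simp)
  | i, n + 1 => (Walk.cons (h i) (seg γ h (i + 1) n)).copy rfl (by congr 1; push_cast; ring)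

variable (h : ∀ i, grid.Adj (γ i) (γ (i + 1)))

lemma length_seg : ∀ (i : ℤ) (n : ℕ), (seg γ h i n).length = n
  | i, 0 => by simp [seg]
  | i, n + 1 => by simp [seg, length_seg (i + 1) n]

lemma getVert_seg : ∀ (i : ℤ) (n k : ℕ), k ≤ n → (seg γ h i n).getVert k = γ (i + k)
  | i, 0, k, hk => by simp [seg, Nat.le_zero.1 hk]
  | i, n + 1, 0, _ => by simp [seg]
  | i, n + 1, k + 1, hk => by
    simp only [seg, Walk.getVert_copy, Walk.getVert_cons_succ]
    rw [getVert_seg (i + 1) n k (Nat.le_of_succ_le_succ hk)]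
    push_cast
    ring_nf

lemma plen_seg : ∀ (i : ℤ) (n : ℕ),
    plen t (seg γ h i n) = ∑ k ∈ Finset.range n, wt t (γ (i + k)) (γ (i + k + 1))
  | i, 0 => by simp [seg, plen]
  | i, n + 1 => by
    rw [Finset.sum_range_succ']
    have h1 := plen_seg (i + 1) n
    simp only [plen] at h1
    simp only [seg, plen, Walk.darts_copy, Walk.darts_cons, List.map_cons, List.sum_cons, h1]
    push_cast
    rw [add_comm]
    refine congrArg₂ (· + ·) (Finset.sum_congr rfl fun k _ => ?_) (by simp)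
    rw [add_comm (k : ℤ) 1, ← add_assoc]

lemma sum_Ico_eq (F : ℤ → ℝ) (i : ℤ) (n : ℕ) :
    ∑ k ∈ Finset.Ico i (i + n), F k = ∑ k ∈ Finset.range n, F (i + k) := by
  rw [show Finset.Ico i (i + n) = (Finset.range n).image fun k : ℕ => i + (k : ℤ) from ?_,
    Finset.sum_image fun a _ b _ hab => by simpa using hab]
  ext x
  simp only [Finset.mem_Ico, Finset.mem_image, Finset.mem_range]
  exact ⟨fun hx => ⟨(x - i).toNat, by omega, by omega⟩, fun ⟨k, hk, hx⟩ => by omega⟩

lemma plen_seg_eq_T (hg : IsBigeodesic t γ) (i : ℤ) (n : ℕ) (hn : 0 < n) :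
    plen t (seg γ (gadj hg) i n) = T t (γ i) (γ (i + n)) := by
  rw [← hg.geo i (i + n) (by omega), sum_Ico_eq, plen_seg]

lemma mem_support_seg {i : ℤ} {n : ℕ} {x : V} (hx : x ∈ (seg γ h i n).support) :
    ∃ k ≤ n, γ (i + k) = x := by
  obtain ⟨k, hk, hkn⟩ := Walk.mem_support_iff_exists_getVert.1 hx
  rw [length_seg] at hkn
  exact ⟨k, hkn, (getVert_seg h i n k hkn).symm.trans hk⟩

lemma isPath_seg (hinj : Function.Injective γ) : ∀ (i : ℤ) (n : ℕ), (seg γ h i n).IsPath
  | i, 0 => by simp [seg]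
  | i, n + 1 => by
    simp only [seg, Walk.isPath_copy, Walk.cons_isPath_iff]
    refine ⟨isPath_seg hinj (i + 1) n, fun hx => ?_⟩
    obtain ⟨k, -, hk⟩ := mem_support_seg h hx
    have := hinj hk
    omega

/-- Two bigeodesics through the same two vertices, in the same order, agree between them. -/
theorem segment_unique (htf : TieFree t) (hγ : IsBigeodesic t γ) (hδ : IsBigeodesic t δ)
    {i i' : ℤ} {n n' : ℕ} (hi : γ i = δ i') (hj : γ (i + n) = δ (i' + n')) :
    n = n' ∧ ∀ k : ℕ, k ≤ n → γ (i + k) = δ (i' + k) := by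
  rcases Nat.eq_zero_or_pos n with rfl | hn
  · have h0 : δ (i' + n') = δ i' := by
      rw [← hj, ← hi]; simp
    have hz := hδ.inj h0
    have hn' : n' = 0 := by omega
    exact ⟨hn'.symm, fun k hk => by simp [Nat.le_zero.1 hk, hi]⟩
  have hn' : 0 < n' := by
    rcases Nat.eq_zero_or_pos n' with rfl | h'
    · rw [show δ (i' + (0 : ℕ)) = δ i' by simp, ← hi] at hj
      have := hγ.inj hj
      omega
    · exact h'
  have hw := htf _ _ (seg γ (gadj hγ) i n) ((seg δ (gadj hδ) i' n').copy hi.symm hj.symm)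
    (isPath_seg _ hγ.inj _ _) ((Walk.isPath_copy _ _ _).2 (isPath_seg _ hδ.inj _ _))
    ((plen_seg_eq_T hγ i n hn).trans ((congrArg₂ (T t) hi hj).trans
      ((plen_seg_eq_T hδ i' n' hn').symm.trans (by simp [plen]))))
  have hl := congrArg Walk.length hw
  rw [Walk.length_copy, length_seg, length_seg] at hl
  refine ⟨hl, fun k hk => ?_⟩
  rw [← getVert_seg (gadj hγ) i n k hk, hw, Walk.getVert_copy, getVert_seg (gadj hδ) i' n' k (hl ▸ hk)]

end Vale.Agent.P158.Fork
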